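import Vale.Agent.P217.Base
import Vale.Agent.P217.FG.Existence

/-!
# P217: twisting `F` along an endomorphism of `E0` that rescales the parameters

If `ζ * σ (u j) = ζ ^ (p ^ j) * u j` for all `j ≥ 1`, then `ζ * F^σ (x, y) = F (ζ x, ζ y)`. With
`ζ = 1` this gives Galois stability, with Teichmüller representatives the scalar endomorphisms of
the special fibre.
-/

noncomputable section

namespace Vale.Agent.P217.FG

open MvPowerSeries

variable {p n : ℕ} [hp : Fact p.Prime] {F : FormalGroup (E0 p n)}

/-- The extension to `E0[1/p]` of an endomorphism of `E0`. -/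
def extendAway (σ : E0 p n →+* E0 p n) : E0inv p n →+* E0inv p n :=
  IsLocalization.Away.lift (p : E0 p n) (g := (algebraMap (E0 p n) (E0inv p n)).comp σ)
    (by rw [map_natCast, ← map_natCast (algebraMap (E0 p n) (E0inv p n))]
        exact IsLocalization.Away.algebraMap_isUnit _)

lemma extendAway_map (σ : E0 p n →+* E0 p n) (x : E0 p n) :
    extendAway σ (algebraMap (E0 p n) (E0inv p n) x) = algebraMap (E0 p n) (E0inv p n) (σ x) :=
  IsLocalization.Away.lift_eq _ _ x

/-- The twisted logarithm coefficients. -/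
lemma logCoeff_twist (σ : E0 p n →+* E0 p n) (ζ : E0 p n)
    (hζ : ∀ j, 1 ≤ j → ζ * σ (u p n j) = ζ ^ p ^ j * u p n j) (t : ℕ) :
    algebraMap (E0 p n) (E0inv p n) ζ * extendAway σ (logCoeff p n t) =
      algebraMap (E0 p n) (E0inv p n) ζ ^ p ^ t * logCoeff p n t := by
  induction t using Nat.strong_induction_on with
  | _ t ih =>
  cases t with
  | zero => simp [logCoeff]
  | succ t =>
    refine (haz p n).cancel_p ?_
    have hl : (p : E0inv p n) * logCoeff p n (t + 1) = ∑ s ∈ Finset.range (t + 1), logCoeff p n s *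
        algebraMap (E0 p n) (E0inv p n) (u p n (t + 1 - s)) ^ p ^ s := (haz p n).l_succ t
    rw [mul_left_comm, mul_left_comm (p : E0inv p n), hl, ← map_natCast (extendAway σ), ← map_mul,
      hl, map_sum, Finset.mul_sum, Finset.mul_sum]
    refine Finset.sum_congr rfl fun s hs => ?_
    have hs' : s ≤ t := Nat.lt_succ_iff.1 (Finset.mem_range.1 hs)
    rw [map_mul, map_pow, extendAway_map, ← mul_assoc, ih s (Finset.mem_range.1 hs),
      mul_right_comm _ (logCoeff p n s), ← mul_pow, ← map_mul, hζ _ (by omega), map_mul, map_pow,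
      mul_pow, ← pow_mul, ← pow_add, Nat.sub_add_cancel (by omega)]
    ring

/-- Twisting by `σ` corresponds to scaling the variables by `ζ`. -/
theorem twist_eq (hF : IsHazewinkel p n F) (σ : E0 p n →+* E0 p n) (ζ : E0 p n)
    (hζ : ∀ j, 1 ≤ j → ζ * σ (u p n j) = ζ ^ p ^ j * u p n j) :
    MvPowerSeries.C ζ * (F.map σ).toPowerSeries =
      F.toPowerSeries.subst
        ![MvPowerSeries.C ζ * MvPowerSeries.X 0, MvPowerSeries.C ζ * MvPowerSeries.X 1] := by
  set f := (haz p n).log with hf
  set c := algebraMap (E0 p n) (E0inv p n) ζ with hc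
  have hF' : (haz p n).IsLog F := hF
  have hresc : PowerSeries.rescale c f = PowerSeries.C c * PowerSeries.map (extendAway σ) f := by
    ext d
    rw [PowerSeries.coeff_rescale, PowerSeries.coeff_C_mul, PowerSeries.coeff_map]
    simp only [hf, Haz.log, PowerSeries.coeff_mk]
    split_ifs with h
    · conv_lhs => arg 1; rw [h]
      exact (logCoeff_twist σ ζ hζ _).symm
    · simp
  have hscale : ∀ w : MvPowerSeries (Fin 2) (E0inv p n), w.constantCoeff = 0 →
      PowerSeries.subst (MvPowerSeries.C c * w) f =
        MvPowerSeries.C c * PowerSeries.subst w (PowerSeries.map (extendAway σ) f) := fun w hw => by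
    have h2 : PowerSeries.HasSubst w := PowerSeries.HasSubst.of_constantCoeff_zero hw
    have h1 : PowerSeries.HasSubst (c • PowerSeries.X : PowerSeries (E0inv p n)) :=
      PowerSeries.HasSubst.smul_X' c
    have h3 := congrArg (PowerSeries.subst w) hresc
    rw [PowerSeries.rescale_eq_subst, PowerSeries.subst_comp_subst_apply h1 h2,
      PowerSeries.subst_smul h2, PowerSeries.subst_X h2, PowerSeries.subst_mul h2,
      PowerSeries.subst_C] at h3
    rw [← h3, MvPowerSeries.smul_eq_C_mul]
  have hFK : ((F.map (algebraMap (E0 p n) (E0inv p n))).toPowerSeries).constantCoeff = 0 :=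
    (F.map _).zero_constantCoeff
  have hX : ∀ i : Fin 2,
      PowerSeries.HasSubst (MvPowerSeries.X i : MvPowerSeries (Fin 2) (E0inv p n)) :=
    fun i => PowerSeries.HasSubst.of_constantCoeff_zero (by simp)
  have hσ := congrArg (MvPowerSeries.map (extendAway σ)) hF'
  rw [map_add, PowerSeries.map_subst (PowerSeries.HasSubst.of_constantCoeff_zero hFK),
    PowerSeries.map_subst (hX 0), PowerSeries.map_subst (hX 1), MvPowerSeries.map_X,
    MvPowerSeries.map_X, ← hf] at hσ
  have hmm : MvPowerSeries.map (extendAway σ) (F.map (algebraMap _ (E0inv p n))).toPowerSeries =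
      MvPowerSeries.map (algebraMap _ (E0inv p n)) (F.map σ).toPowerSeries := by
    ext e
    exact extendAway_map σ _
  rw [hmm] at hσ
  refine (haz p n).eq_of_log_eq (by simp [F.zero_constantCoeff, constantCoeff_map])
    (Haz.constantCoeff_two F (by simp) (by simp)) ?_
  have h0 : ∀ i : Fin 2, (MvPowerSeries.C ζ * MvPowerSeries.X i).constantCoeff = 0 := by simp
  have h2 := Haz.IsLog.subst_two (haz p n) hF' (h0 0) (h0 1)
  rw [← hf] at h2 ⊢
  refine Eq.trans ?_ h2.symm
  rw [map_mul, map_mul, map_mul, MvPowerSeries.map_C,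
    MvPowerSeries.map_X, MvPowerSeries.map_X, ← hc, hscale _ (by simp [F.zero_constantCoeff]), hscale _ (by simp),
    hscale _ (by simp), hσ, mul_add]

end Vale.Agent.P217.FG
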